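import Vale.Agent.P032.Words.H670.Split

/-!
# P032: hexagons around a centre with six colours, box tables (W32, data B)
-/

open Vale.Agent.P032.Words.Trie

namespace Vale.Agent.P032.H800.W32.B

/-- the data -/
def D : Dat where
  A := 8
  N := 17
  nb := [224, 208, 168, 196, 162, 85, 43, 31]
  op := [127, 191, 223, 191, 223, 171, 213, 254]
  nbT := [65760, 32976, 82088, 4292, 67746, 37461, 18731, 10015, 102592, 84128, 114816, 45648, 92456,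
71808, 38468, 85282, 46869]
  opT := [65407, 98239, 49119, 126911, 63455, 93611, 112341, 121086, 130879, 130911, 130943, 130991,
131031, 130943, 131003, 131037, 131050]
  PL := [[0], [1], [2], [3], [4], [5], [6], [7], [0, 1, 3], [0, 2, 4], [1, 2], [1, 5], [2, 6], [3, 4],
[3, 5], [4, 6], [5, 7]]
  L := [3, 5, 9, 6, 10, 20, 40, 48]
  P := [3, 5, 9, 6, 10, 20, 40, 48, 7, 11, 13, 21, 41, 14, 22, 42, 52]
  r := 0
  tie := [0, 0, 0, 0, 0, 0, 0, 0, 0, 0, 0, 0, 0, 0, 0, 0, 0]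

/-- changes of the value at a tie -/
def J : List (List ℕ) := [[]]

/-- reachable values -/
def R : List (List ℕ) := [[1], [2], [4], [8], [0x10], [0x20], [0x40], [0x80], [0x100], [0x200], [0x400], [0x800],
[0x1000], [0x2000], [0x4000], [0x8000], [0x10000], [0x20000], [0x40000], [0x80000], [0x100000],
[0x200000], [0x400000], [0x800000], [0x1000000], [0x2000000], [0x4000000], [0x8000000]]

noncomputable def q0 : Tr := .c 5 (.l 0) (.c 6 (.l 1) .e)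
noncomputable def r0 : Tr := .c 0 q0 .e
noncomputable def q1 : Tr := .c 5 (.l 2) (.c 6 (.l 3) .e)
noncomputable def q2 : Tr := .c 6 (.l 3) .e
noncomputable def r1 : Tr := .c 0 q1 (.c 1 q2 (.c 3 q2 (.c 5 q2 .e)))
noncomputable def t0 : Tr := .c 5 r0 (.c 6 r1 .e)
noncomputable def q3 : Tr := .c 6 (.l 1) (.c 7 (.l 0) .e)
noncomputable def r2 : Tr := .c 0 q3 .e
noncomputable def t1 : Tr := .c 5 r2 .e
noncomputable def q4 : Tr := .c 6 (.l 4) .e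
noncomputable def r3 : Tr := .c 5 q4 .e
noncomputable def t2 : Tr := .c 0 r3 (.c 5 r2 .e)
noncomputable def q5 : Tr := .c 5 (.l 5) (.c 6 (.l 6) .e)
noncomputable def q6 : Tr := .c 5 (.l 5) .e
noncomputable def r4 : Tr := .c 0 q5 (.c 2 q6 (.c 4 q6 (.c 6 q6 .e)))
noncomputable def q7 : Tr := .c 5 (.l 7) (.c 6 (.l 8) .e)
noncomputable def r5 : Tr := .c 0 q7 .e
noncomputable def t3 : Tr := .c 5 r4 (.c 6 r5 .e)
noncomputable def q8 : Tr := .c 5 (.l 7) (.c 7 (.l 7) .e)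
noncomputable def r6 : Tr := .c 0 q8 .e
noncomputable def t4 : Tr := .c 6 r6 .e
noncomputable def q9 : Tr := .c 5 (.l 9) .e
noncomputable def r7 : Tr := .c 6 q9 .e
noncomputable def t5 : Tr := .c 0 r7 (.c 6 r6 .e)
noncomputable def q10 : Tr := .c 5 (.l 0) .e
noncomputable def r8 : Tr := .c 2 q10 (.c 4 q10 (.c 6 q10 .e))
noncomputable def r9 : Tr := .c 1 q2 (.c 3 q2 (.c 5 q2 .e))
noncomputable def t6 : Tr := .c 5 r8 (.c 6 r9 .e)
noncomputable def q11 : Tr := .c 7 (.l 2) .e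
noncomputable def r10 : Tr := .c 1 q11 .e
noncomputable def r11 : Tr := .c 1 q11 (.c 3 q11 .e)
noncomputable def t7 : Tr := .c 4 r10 (.c 6 r11 .e)
noncomputable def q12 : Tr := .c 7 (.l 0) .e
noncomputable def r12 : Tr := .c 2 q12 .e
noncomputable def r13 : Tr := .c 2 q12 (.c 4 q12 .e)
noncomputable def t8 : Tr := .c 3 r12 (.c 5 r13 .e)
noncomputable def r14 : Tr := .c 3 q11 .e
noncomputable def t9 : Tr := .c 2 r14 (.c 6 r11 .e)
noncomputable def r15 : Tr := .c 4 q12 .e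
noncomputable def t10 : Tr := .c 1 r15 (.c 5 r13 .e)
noncomputable def q13 : Tr := .c 4 (.l 10) (.c 7 (.l 7) .e)
noncomputable def q14 : Tr := .c 4 (.l 11) .e
noncomputable def r16 : Tr := .c 1 q13 (.c 7 q14 .e)
noncomputable def q15 : Tr := .c 7 (.l 5) .e
noncomputable def q16 : Tr := .c 4 (.l 6) (.c 7 (.l 5) .e)
noncomputable def r17 : Tr := .c 0 q15 (.c 1 q16 (.c 2 q15 (.c 3 q15 (.c 4 q15 .e))))
noncomputable def t11 : Tr := .c 4 r16 (.c 7 r17 .e)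
noncomputable def q17 : Tr := .c 7 (.l 7) .e
noncomputable def r18 : Tr := .c 3 q17 .e
noncomputable def r19 : Tr := .c 1 q17 .e
noncomputable def t12 : Tr := .c 2 r18 (.c 4 r19 .e)
noncomputable def r20 : Tr := .c 7 q14 .e
noncomputable def q18 : Tr := .c 7 (.l 9) .e
noncomputable def r21 : Tr := .c 4 q18 (.c 7 q14 .e)
noncomputable def q19 : Tr := .c 6 (.l 11) (.c 7 (.l 7) .e)
noncomputable def r22 : Tr := .c 3 q19 (.c 7 q14 .e)
noncomputable def r23 : Tr := .c 2 q18 (.c 7 q14 .e)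
noncomputable def q20 : Tr := .c 4 (.l 11) (.c 6 (.l 11) (.c 7 (.l 7) .e))
noncomputable def r24 : Tr := .c 1 q20 (.c 7 q14 .e)
noncomputable def t13 : Tr := .c 0 r20 (.c 1 r21 (.c 2 r22 (.c 3 r23 (.c 4 r24 .e))))
noncomputable def q21 : Tr := .c 6 (.l 6) .e
noncomputable def r25 : Tr := .c 0 q21 .e
noncomputable def t14 : Tr := .c 5 r25 (.c 7 r25 .e)
noncomputable def r26 : Tr := .c 0 q15 (.c 2 q15 (.c 4 q15 .e))
noncomputable def t15 : Tr := .c 4 r20 (.c 7 r26 .e)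
noncomputable def t16 : Tr := .c 2 r20 (.c 7 r26 .e)
noncomputable def q22 : Tr := .c 4 (.l 1) (.c 6 (.l 1) .e)
noncomputable def q23 : Tr := .c 6 (.l 1) .e
noncomputable def r27 : Tr := .c 1 q22 (.c 3 q23 .e)
noncomputable def t17 : Tr := .c 7 r27 .e
noncomputable def q24 : Tr := .c 4 (.l 3) (.c 7 (.l 2) .e)
noncomputable def q25 : Tr := .c 4 (.l 3) .e
noncomputable def r28 : Tr := .c 1 q24 (.c 5 q25 (.c 7 q25 .e))
noncomputable def q26 : Tr := .c 4 (.l 1) (.c 7 (.l 12) .e)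
noncomputable def q27 : Tr := .c 7 (.l 12) .e
noncomputable def r29 : Tr := .c 1 q26 (.c 2 q12 (.c 3 q27 (.c 4 q12 .e)))
noncomputable def t18 : Tr := .c 4 r28 (.c 7 r29 .e)
noncomputable def q28 : Tr := .c 4 (.l 4) .e
noncomputable def r30 : Tr := .c 2 q12 (.c 7 q28 .e)
noncomputable def q29 : Tr := .c 4 (.l 1) (.c 6 (.l 1) (.c 7 (.l 0) .e))
noncomputable def r31 : Tr := .c 1 q29 (.c 2 q12 (.c 3 q3 (.c 4 q12 .e)))
noncomputable def t19 : Tr := .c 3 r30 (.c 5 r13 (.c 7 r31 .e))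
noncomputable def r32 : Tr := .c 3 q11 (.c 5 q25 (.c 7 q25 .e))
noncomputable def t20 : Tr := .c 2 r32 (.c 7 r29 .e)
noncomputable def r33 : Tr := .c 4 q12 (.c 7 q28 .e)
noncomputable def t21 : Tr := .c 1 r33 (.c 5 r13 (.c 7 r31 .e))
noncomputable def q30 : Tr := .c 3 (.l 13) (.c 7 (.l 0) .e)
noncomputable def q31 : Tr := .c 3 (.l 14) .e
noncomputable def r34 : Tr := .c 2 q30 (.c 7 q31 .e)
noncomputable def q32 : Tr := .c 3 (.l 0) (.c 7 (.l 0) .e)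
noncomputable def r35 : Tr := .c 0 q12 (.c 1 q12 (.c 2 q32 (.c 3 q12 (.c 4 q12 .e))))
noncomputable def t22 : Tr := .c 3 r34 (.c 7 r35 .e)
noncomputable def t23 : Tr := .c 1 r15 (.c 3 r12 .e)
noncomputable def q33 : Tr := .c 3 (.l 15) .e
noncomputable def r36 : Tr := .c 7 q33 .e
noncomputable def q34 : Tr := .c 5 (.l 16) (.c 7 (.l 16) .e)
noncomputable def r37 : Tr := .c 4 q34 (.c 7 q33 .e)
noncomputable def q35 : Tr := .c 7 (.l 17) .e
noncomputable def r38 : Tr := .c 3 q35 (.c 7 q33 .e)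
noncomputable def q36 : Tr := .c 3 (.l 16) (.c 5 (.l 16) (.c 7 (.l 16) .e))
noncomputable def r39 : Tr := .c 2 q36 (.c 7 q33 .e)
noncomputable def r40 : Tr := .c 1 q35 (.c 7 q33 .e)
noncomputable def t24 : Tr := .c 0 r36 (.c 1 r37 (.c 2 r38 (.c 3 r39 (.c 4 r40 .e))))
noncomputable def q37 : Tr := .c 5 (.l 2) .e
noncomputable def r41 : Tr := .c 0 q37 .e
noncomputable def r42 : Tr := .c 0 q10 .e
noncomputable def t25 : Tr := .c 6 r41 (.c 7 r42 .e)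
noncomputable def r43 : Tr := .c 7 q31 .e
noncomputable def r44 : Tr := .c 0 q12 (.c 1 q12 (.c 3 q12 .e))
noncomputable def t26 : Tr := .c 3 r43 (.c 7 r44 .e)
noncomputable def t27 : Tr := .c 1 r43 (.c 7 r44 .e)
noncomputable def q38 : Tr := .c 3 (.l 0) (.c 5 (.l 0) .e)
noncomputable def r45 : Tr := .c 2 q38 (.c 4 q10 .e)
noncomputable def t28 : Tr := .c 7 r45 .e
noncomputable def q39 : Tr := .c 3 (.l 18) .e
noncomputable def r46 : Tr := .c 1 q11 (.c 7 q39 .e)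
noncomputable def q40 : Tr := .c 3 (.l 0) (.c 5 (.l 0) (.c 7 (.l 0) .e))
noncomputable def q41 : Tr := .c 5 (.l 0) (.c 7 (.l 0) .e)
noncomputable def r47 : Tr := .c 1 q12 (.c 2 q40 (.c 3 q12 (.c 4 q41 .e)))
noncomputable def t29 : Tr := .c 4 r46 (.c 6 r11 (.c 7 r47 .e))
noncomputable def q42 : Tr := .c 3 (.l 0) .e
noncomputable def r48 : Tr := .c 2 q32 (.c 6 q42 (.c 7 q31 .e))
noncomputable def r49 : Tr := .c 1 q12 (.c 2 q32 (.c 3 q12 (.c 4 q12 .e)))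
noncomputable def t30 : Tr := .c 3 r48 (.c 7 r49 .e)
noncomputable def r50 : Tr := .c 3 q11 (.c 7 q39 .e)
noncomputable def t31 : Tr := .c 2 r50 (.c 6 r11 (.c 7 r47 .e))
noncomputable def r51 : Tr := .c 4 q12 (.c 6 q42 (.c 7 q31 .e))
noncomputable def t32 : Tr := .c 1 r51 (.c 7 r49 .e)
noncomputable def q43 : Tr := .c 2 (.l 19) (.c 7 (.l 7) .e)
noncomputable def q44 : Tr := .c 2 (.l 11) .e
noncomputable def r52 : Tr := .c 3 q43 (.c 7 q44 .e)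
noncomputable def q45 : Tr := .c 2 (.l 6) (.c 7 (.l 5) .e)
noncomputable def r53 : Tr := .c 0 q15 (.c 1 q15 (.c 2 q15 (.c 3 q45 (.c 4 q15 .e))))
noncomputable def t33 : Tr := .c 2 r52 (.c 7 r53 .e)
noncomputable def r54 : Tr := .c 7 q44 .e
noncomputable def r55 : Tr := .c 4 q18 (.c 7 q44 .e)
noncomputable def q46 : Tr := .c 2 (.l 11) (.c 6 (.l 11) (.c 7 (.l 7) .e))
noncomputable def r56 : Tr := .c 3 q46 (.c 7 q44 .e)
noncomputable def r57 : Tr := .c 2 q18 (.c 7 q44 .e)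
noncomputable def r58 : Tr := .c 1 q19 (.c 7 q44 .e)
noncomputable def t34 : Tr := .c 0 r54 (.c 1 r55 (.c 2 r56 (.c 3 r57 (.c 4 r58 .e))))
noncomputable def t35 : Tr := .c 4 r54 (.c 7 r26 .e)
noncomputable def t36 : Tr := .c 2 r54 (.c 7 r26 .e)
noncomputable def q47 : Tr := .c 2 (.l 1) (.c 6 (.l 1) .e)
noncomputable def r59 : Tr := .c 1 q23 (.c 3 q47 .e)
noncomputable def t37 : Tr := .c 7 r59 .e
noncomputable def q48 : Tr := .c 2 (.l 3) .e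
noncomputable def r60 : Tr := .c 1 q11 (.c 5 q48 (.c 7 q48 .e))
noncomputable def q49 : Tr := .c 2 (.l 1) (.c 7 (.l 12) .e)
noncomputable def r61 : Tr := .c 1 q27 (.c 2 q12 (.c 3 q49 (.c 4 q12 .e)))
noncomputable def t38 : Tr := .c 4 r60 (.c 7 r61 .e)
noncomputable def q50 : Tr := .c 2 (.l 4) .e
noncomputable def r62 : Tr := .c 2 q12 (.c 7 q50 .e)
noncomputable def q51 : Tr := .c 2 (.l 1) (.c 6 (.l 1) (.c 7 (.l 0) .e))
noncomputable def r63 : Tr := .c 1 q3 (.c 2 q12 (.c 3 q51 (.c 4 q12 .e)))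
noncomputable def t39 : Tr := .c 3 r62 (.c 5 r13 (.c 7 r63 .e))
noncomputable def q52 : Tr := .c 2 (.l 3) (.c 7 (.l 2) .e)
noncomputable def r64 : Tr := .c 3 q52 (.c 5 q48 (.c 7 q48 .e))
noncomputable def t40 : Tr := .c 2 r64 (.c 7 r61 .e)
noncomputable def r65 : Tr := .c 4 q12 (.c 7 q50 .e)
noncomputable def t41 : Tr := .c 1 r65 (.c 5 r13 (.c 7 r63 .e))
noncomputable def q53 : Tr := .c 1 (.l 20) (.c 7 (.l 0) .e)
noncomputable def q54 : Tr := .c 1 (.l 14) .e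
noncomputable def r66 : Tr := .c 4 q53 (.c 7 q54 .e)
noncomputable def q55 : Tr := .c 1 (.l 0) (.c 7 (.l 0) .e)
noncomputable def r67 : Tr := .c 0 q12 (.c 1 q12 (.c 2 q12 (.c 3 q12 (.c 4 q55 .e))))
noncomputable def t42 : Tr := .c 1 r66 (.c 7 r67 .e)
noncomputable def q56 : Tr := .c 1 (.l 15) .e
noncomputable def r68 : Tr := .c 7 q56 .e
noncomputable def q57 : Tr := .c 1 (.l 16) (.c 5 (.l 16) (.c 7 (.l 16) .e))
noncomputable def r69 : Tr := .c 4 q57 (.c 7 q56 .e)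
noncomputable def r70 : Tr := .c 3 q35 (.c 7 q56 .e)
noncomputable def r71 : Tr := .c 2 q34 (.c 7 q56 .e)
noncomputable def r72 : Tr := .c 1 q35 (.c 7 q56 .e)
noncomputable def t43 : Tr := .c 0 r68 (.c 1 r69 (.c 2 r70 (.c 3 r71 (.c 4 r72 .e))))
noncomputable def r73 : Tr := .c 7 q54 .e
noncomputable def t44 : Tr := .c 3 r73 (.c 7 r44 .e)
noncomputable def t45 : Tr := .c 1 r73 (.c 7 r44 .e)
noncomputable def q58 : Tr := .c 1 (.l 0) (.c 5 (.l 0) .e)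
noncomputable def r74 : Tr := .c 2 q10 (.c 4 q58 .e)
noncomputable def t46 : Tr := .c 7 r74 .e
noncomputable def q59 : Tr := .c 1 (.l 18) .e
noncomputable def r75 : Tr := .c 1 q11 (.c 7 q59 .e)
noncomputable def q60 : Tr := .c 1 (.l 0) (.c 5 (.l 0) (.c 7 (.l 0) .e))
noncomputable def r76 : Tr := .c 1 q12 (.c 2 q41 (.c 3 q12 (.c 4 q60 .e)))
noncomputable def t47 : Tr := .c 4 r75 (.c 6 r11 (.c 7 r76 .e))
noncomputable def q61 : Tr := .c 1 (.l 0) .e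
noncomputable def r77 : Tr := .c 2 q12 (.c 6 q61 (.c 7 q54 .e))
noncomputable def r78 : Tr := .c 1 q12 (.c 2 q12 (.c 3 q12 (.c 4 q55 .e)))
noncomputable def t48 : Tr := .c 3 r77 (.c 7 r78 .e)
noncomputable def r79 : Tr := .c 3 q11 (.c 7 q59 .e)
noncomputable def t49 : Tr := .c 2 r79 (.c 6 r11 (.c 7 r76 .e))
noncomputable def r80 : Tr := .c 4 q55 (.c 6 q61 (.c 7 q54 .e))
noncomputable def t50 : Tr := .c 1 r80 (.c 7 r78 .e)
noncomputable def q62 : Tr := .c 0 (.l 11) .e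
noncomputable def q63 : Tr := .c 0 (.l 21) .e
noncomputable def r81 : Tr := .c 5 q62 (.c 6 q63 .e)
noncomputable def t51 : Tr := .c 0 r81 .e
noncomputable def q64 : Tr := .c 0 (.l 22) (.c 2 (.l 22) (.c 4 (.l 22) (.c 6 (.l 22) .e)))
noncomputable def q65 : Tr := .c 0 (.l 23) .e
noncomputable def r82 : Tr := .c 5 q64 (.c 6 q65 .e)
noncomputable def r83 : Tr := .c 6 q65 .e
noncomputable def q66 : Tr := .c 6 (.l 24) .e
noncomputable def r84 : Tr := .c 0 q66 (.c 6 q65 .e)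
noncomputable def t52 : Tr := .c 0 r82 (.c 1 r83 (.c 3 r83 (.c 5 r84 .e)))
noncomputable def q67 : Tr := .c 2 (.l 11) (.c 4 (.l 11) (.c 6 (.l 11) .e))
noncomputable def r85 : Tr := .c 5 q67 .e
noncomputable def t53 : Tr := .c 0 r85 .e
noncomputable def q68 : Tr := .c 4 (.l 6) .e
noncomputable def q69 : Tr := .c 2 (.l 6) .e
noncomputable def r86 : Tr := .c 1 q68 (.c 3 q69 .e)
noncomputable def t54 : Tr := .c 7 r86 .e
noncomputable def r87 : Tr := .c 6 q63 (.c 7 q62 .e)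
noncomputable def t55 : Tr := .c 0 r87 .e
noncomputable def q70 : Tr := .c 2 (.l 11) (.c 4 (.l 11) .e)
noncomputable def r88 : Tr := .c 7 q70 .e
noncomputable def t56 : Tr := .c 0 r88 (.c 1 r88 (.c 3 r88 .e))
noncomputable def q71 : Tr := .c 0 (.l 25) .e
noncomputable def r89 : Tr := .c 0 q21 (.c 6 q71 .e)
noncomputable def t57 : Tr := .c 5 r89 (.c 7 r25 .e)
noncomputable def q72 : Tr := .c 0 (.l 15) .e
noncomputable def q73 : Tr := .c 0 (.l 16) (.c 1 (.l 16) (.c 3 (.l 16) (.c 5 (.l 16) .e)))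
noncomputable def r90 : Tr := .c 5 q72 (.c 6 q73 .e)
noncomputable def r91 : Tr := .c 5 q72 .e
noncomputable def q74 : Tr := .c 5 (.l 17) .e
noncomputable def r92 : Tr := .c 0 q74 (.c 5 q72 .e)
noncomputable def t58 : Tr := .c 0 r90 (.c 2 r91 (.c 4 r91 (.c 6 r92 .e)))
noncomputable def q75 : Tr := .c 0 (.l 14) .e
noncomputable def q76 : Tr := .c 0 (.l 26) .e
noncomputable def r93 : Tr := .c 5 q75 (.c 6 q76 .e)
noncomputable def t59 : Tr := .c 0 r93 .e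
noncomputable def q77 : Tr := .c 1 (.l 16) (.c 3 (.l 16) (.c 5 (.l 16) .e))
noncomputable def r94 : Tr := .c 6 q77 .e
noncomputable def t60 : Tr := .c 0 r94 .e
noncomputable def r95 : Tr := .c 2 q42 (.c 4 q61 .e)
noncomputable def t61 : Tr := .c 7 r95 .e
noncomputable def r96 : Tr := .c 5 q75 (.c 7 q75 .e)
noncomputable def t62 : Tr := .c 0 r96 .e
noncomputable def q78 : Tr := .c 1 (.l 15) (.c 3 (.l 15) .e)
noncomputable def r97 : Tr := .c 7 q78 .e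
noncomputable def t63 : Tr := .c 0 r97 (.c 2 r97 (.c 4 r97 .e))
noncomputable def q79 : Tr := .c 0 (.l 18) .e
noncomputable def r98 : Tr := .c 0 q37 (.c 5 q79 .e)
noncomputable def t64 : Tr := .c 6 r98 (.c 7 r42 .e)
noncomputable def r99 : Tr := .c 5 q62 .e
noncomputable def t65 : Tr := .c 2 r99 (.c 4 r99 (.c 6 r99 .e))
noncomputable def t66 : Tr := .c 1 r83 (.c 3 r83 (.c 5 r83 .e))
noncomputable def q80 : Tr := .c 1 (.l 21) .e
noncomputable def q81 : Tr := .c 1 (.l 21) (.c 3 (.l 21) .e)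
noncomputable def r100 : Tr := .c 4 q80 (.c 6 q81 .e)
noncomputable def r101 : Tr := .c 3 q44 (.c 5 q70 .e)
noncomputable def q82 : Tr := .c 3 (.l 21) .e
noncomputable def r102 : Tr := .c 2 q82 (.c 6 q81 .e)
noncomputable def r103 : Tr := .c 1 q14 (.c 5 q70 .e)
noncomputable def t67 : Tr := .c 1 r100 (.c 2 r101 (.c 3 r102 (.c 4 r103 .e)))
noncomputable def q83 : Tr := .c 1 (.l 23) .e
noncomputable def q84 : Tr := .c 0 (.l 22) (.c 1 (.l 22) (.c 2 (.l 22) (.c 3 (.l 22) (.c 4 (.l 22)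
.e))))
noncomputable def r104 : Tr := .c 4 q83 (.c 7 q84 .e)
noncomputable def q85 : Tr := .c 3 (.l 23) .e
noncomputable def r105 : Tr := .c 2 q85 (.c 4 q83 .e)
noncomputable def q86 : Tr := .c 4 (.l 24) .e
noncomputable def q87 : Tr := .c 2 (.l 24) .e
noncomputable def r106 : Tr := .c 1 q86 (.c 2 q85 (.c 3 q87 (.c 4 q83 .e)))
noncomputable def t68 : Tr := .c 1 r104 (.c 5 r105 (.c 7 r106 .e))
noncomputable def q88 : Tr := .c 0 (.l 22) (.c 2 (.l 22) (.c 4 (.l 22) .e))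
noncomputable def r107 : Tr := .c 7 q88 .e
noncomputable def t69 : Tr := .c 1 r107 (.c 3 r107 .e)
noncomputable def q89 : Tr := .c 1 (.l 27) (.c 2 (.l 11) (.c 3 (.l 27) (.c 4 (.l 11) .e)))
noncomputable def r108 : Tr := .c 4 q80 (.c 7 q89 .e)
noncomputable def q90 : Tr := .c 1 (.l 11) (.c 2 (.l 11) (.c 3 (.l 11) (.c 4 (.l 11) .e)))
noncomputable def r109 : Tr := .c 3 q44 (.c 5 q70 (.c 7 q90 .e))
noncomputable def r110 : Tr := .c 2 q82 (.c 7 q89 .e)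
noncomputable def r111 : Tr := .c 1 q14 (.c 5 q70 (.c 7 q90 .e))
noncomputable def t70 : Tr := .c 1 r108 (.c 2 r109 (.c 3 r110 (.c 4 r111 .e)))
noncomputable def q91 : Tr := .c 0 (.l 11) (.c 1 (.l 11) (.c 2 (.l 11) (.c 3 (.l 11) (.c 4 (.l 11)
.e))))
noncomputable def r112 : Tr := .c 3 q44 (.c 7 q91 .e)
noncomputable def r113 : Tr := .c 1 q14 (.c 3 q44 .e)
noncomputable def q92 : Tr := .c 3 (.l 25) .e
noncomputable def q93 : Tr := .c 1 (.l 25) .e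
noncomputable def r114 : Tr := .c 1 q68 (.c 2 q92 (.c 3 q69 (.c 4 q93 .e)))
noncomputable def t71 : Tr := .c 2 r112 (.c 6 r113 (.c 7 r114 .e))
noncomputable def q94 : Tr := .c 0 (.l 11) (.c 1 (.l 11) (.c 3 (.l 11) .e))
noncomputable def r115 : Tr := .c 7 q94 .e
noncomputable def t72 : Tr := .c 2 r115 (.c 4 r115 .e)
noncomputable def r116 : Tr := .c 4 q80 (.c 6 q81 (.c 7 q90 .e))
noncomputable def r117 : Tr := .c 3 q44 (.c 7 q90 .e)
noncomputable def r118 : Tr := .c 2 q82 (.c 6 q81 (.c 7 q90 .e))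
noncomputable def r119 : Tr := .c 1 q14 (.c 7 q90 .e)
noncomputable def t73 : Tr := .c 1 r116 (.c 2 r117 (.c 3 r118 (.c 4 r119 .e)))
noncomputable def r120 : Tr := .c 2 q85 (.c 7 q84 .e)
noncomputable def t74 : Tr := .c 3 r120 (.c 5 r105 (.c 7 r106 .e))
noncomputable def r121 : Tr := .c 1 q14 (.c 7 q91 .e)
noncomputable def t75 : Tr := .c 4 r121 (.c 6 r113 (.c 7 r114 .e))

/-- the diagram -/
noncomputable def T : Tr := (.c 0 (.c 5 (.c 0 t0 (.c 2 t1 (.c 4 t1 (.c 6 t2 .e)))) (.c 6 (.c 0 t3 (.c 1 t4 (.c 3 t4 (.c 5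
t5 .e)))) (.c 7 (.c 0 t6 (.c 1 t7 (.c 2 t8 (.c 3 t9 (.c 4 t10 .e))))) .e))) (.c 1 (.c 4 (.c 1
t11 (.c 5 t12 (.c 7 t13 .e))) (.c 6 (.c 0 t14 (.c 1 t15 (.c 3 t16 .e))) (.c 7 (.c 0 t17 (.c 1
t18 (.c 2 t19 (.c 3 t20 (.c 4 t21 .e))))) .e))) (.c 2 (.c 3 (.c 2 t22 (.c 6 t23 (.c 7 t24 .e)))
(.c 5 (.c 0 t25 (.c 2 t26 (.c 4 t27 .e))) (.c 7 (.c 0 t28 (.c 1 t29 (.c 2 t30 (.c 3 t31 (.c 4
t32 .e))))) .e))) (.c 3 (.c 2 (.c 3 t33 (.c 5 t12 (.c 7 t34 .e))) (.c 6 (.c 0 t14 (.c 1 t35 (.c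
3 t36 .e))) (.c 7 (.c 0 t37 (.c 1 t38 (.c 2 t39 (.c 3 t40 (.c 4 t41 .e))))) .e))) (.c 4 (.c 1
(.c 4 t42 (.c 6 t23 (.c 7 t43 .e))) (.c 5 (.c 0 t25 (.c 2 t44 (.c 4 t45 .e))) (.c 7 (.c 0 t46
(.c 1 t47 (.c 2 t48 (.c 3 t49 (.c 4 t50 .e))))) .e))) (.c 5 (.c 0 (.c 5 t51 (.c 6 t52 (.c 7 t53
.e))) (.c 2 (.c 3 t54 (.c 5 t55 (.c 7 t56 .e))) (.c 4 (.c 1 t54 (.c 5 t55 (.c 7 t56 .e))) (.c 6
(.c 0 t57 (.c 5 t55 .e)) .e)))) (.c 6 (.c 0 (.c 5 t58 (.c 6 t59 (.c 7 t60 .e))) (.c 1 (.c 4 t61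
(.c 6 t62 (.c 7 t63 .e))) (.c 3 (.c 2 t61 (.c 6 t62 (.c 7 t63 .e))) (.c 5 (.c 0 t64 (.c 6 t62
.e)) .e)))) (.c 7 (.c 0 (.c 5 t65 (.c 6 t66 (.c 7 t67 .e))) (.c 1 (.c 4 t68 (.c 6 t69 (.c 7 t70
.e))) (.c 2 (.c 3 t71 (.c 5 t72 (.c 7 t73 .e))) (.c 3 (.c 2 t74 (.c 6 t69 (.c 7 t70 .e))) (.c 4
(.c 1 t75 (.c 5 t72 (.c 7 t73 .e))) .e))))) .e))))))))

end Vale.Agent.P032.H800.W32.B
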